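import Mathlib

/-!
The Courtade-Kumar inequality for parity functions (characters of the cube).
-/

namespace Vale.Agent.Results.P322.Parities

open Finset

/-- The sign `±1` of a bit (`true` is `-1`). -/
def sg (b : Bool) : ℝ := if b then -1 else 1

/-- The transition probability of `n` independent binary symmetric channels with crossover
probability `ε`: the probability of receiving `y` when `x` is sent. -/
def chan (n : ℕ) (ε : ℝ) (x y : Fin n → Bool) : ℝ := ∏ i, (if x i = y i then 1 - ε else ε)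

/-- The joint probability mass function of `(f(X), Y)`: `X` uniform on the cube, `Y` the output of
the channel on input `X`. -/
noncomputable def joint (n : ℕ) (ε : ℝ) (f : (Fin n → Bool) → Bool) (b : Bool)
    (y : Fin n → Bool) : ℝ :=
  ∑ x : Fin n → Bool, (if f x = b then (1 / 2 : ℝ) ^ n * chan n ε x y else 0)

/-- The mutual information `I(f(X); Y)` in bits. -/
noncomputable def mutualInfo (n : ℕ) (ε : ℝ) (f : (Fin n → Bool) → Bool) : ℝ :=
  ∑ b : Bool, ∑ y : Fin n → Bool, joint n ε f b y *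
    Real.logb 2 (joint n ε f b y / ((∑ y', joint n ε f b y') * (∑ b', joint n ε f b' y)))

/-- The parity of the bits in `S`. -/
def parity (n : ℕ) (S : Finset (Fin n)) (x : Fin n → Bool) : Bool :=
  decide (Odd (S.filter (fun i => x i = true)).card)

theorem sg_mul_self (b : Bool) : sg b * sg b = 1 := by
  cases b <;> simp [sg]

theorem ind_eq (a b : Bool) : (if a = b then (1 : ℝ) else 0) = (1 + sg b * sg a) / 2 := by
  cases a <;> cases b <;> simp [sg]

theorem sg_parity (n : ℕ) (S : Finset (Fin n)) (x : Fin n → Bool) :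
    sg (parity n S x) = ∏ i ∈ S, sg (x i) := by
  have h1 : ∏ i ∈ S, sg (x i) = (-1 : ℝ) ^ (S.filter (fun i => x i = true)).card := by
    unfold sg
    rw [Finset.prod_ite, Finset.prod_const, Finset.prod_const, one_pow, mul_one]
  rw [h1]
  unfold parity sg
  by_cases hodd : Odd (S.filter (fun i => x i = true)).card
  · simp [hodd, Odd.neg_one_pow hodd]
  · have heven : Even (S.filter (fun i => x i = true)).card := Nat.not_odd_iff_even.mp hodd
    simp [hodd, Even.neg_one_pow heven]

theorem sum_chan (n : ℕ) (ε : ℝ) (y : Fin n → Bool) : ∑ x : Fin n → Bool, chan n ε x y = 1 := by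
  unfold chan
  rw [← Fintype.prod_sum (fun i (a : Bool) => if a = y i then 1 - ε else ε)]
  apply Finset.prod_eq_one
  intro i _
  rw [Fintype.sum_bool]
  cases y i <;> simp

theorem sum_sg_chan (n : ℕ) (ε : ℝ) (S : Finset (Fin n)) (y : Fin n → Bool) :
    ∑ x : Fin n → Bool, sg (parity n S x) * chan n ε x y
      = (1 - 2 * ε) ^ S.card * sg (parity n S y) := by
  have h1 : ∀ x : Fin n → Bool, sg (parity n S x) * chan n ε x y
      = ∏ i, ((if i ∈ S then sg (x i) else 1) * (if x i = y i then 1 - ε else ε)) := by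
    intro x
    rw [Finset.prod_mul_distrib, Fintype.prod_ite_mem, sg_parity]
    rfl
  rw [Finset.sum_congr rfl (fun x _ => h1 x),
    ← Fintype.prod_sum (fun i (a : Bool) => (if i ∈ S then sg a else 1)
      * (if a = y i then 1 - ε else ε))]
  have h2 : ∀ i, ∑ a : Bool, (if i ∈ S then sg a else 1) * (if a = y i then 1 - ε else ε)
      = if i ∈ S then (1 - 2 * ε) * sg (y i) else 1 := by
    intro i
    rw [Fintype.sum_bool]
    by_cases hi : i ∈ S
    · simp only [if_pos hi]
      cases y i <;> simp [sg] <;> ring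
    · simp only [if_neg hi]
      cases y i <;> simp
  rw [Finset.prod_congr rfl (fun i _ => h2 i), Fintype.prod_ite_mem, Finset.prod_mul_distrib,
    Finset.prod_const, sg_parity]

theorem sum_sg_parity (n : ℕ) (S : Finset (Fin n)) (hS : S.Nonempty) :
    ∑ y : Fin n → Bool, sg (parity n S y) = 0 := by
  have h1 : ∀ y : Fin n → Bool, sg (parity n S y) = ∏ i, (if i ∈ S then sg (y i) else 1) := by
    intro y
    rw [Fintype.prod_ite_mem, sg_parity]
  rw [Finset.sum_congr rfl (fun y _ => h1 y),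
    ← Fintype.prod_sum (fun i (a : Bool) => if i ∈ S then sg a else 1)]
  obtain ⟨i0, hi0⟩ := hS
  apply Finset.prod_eq_zero (Finset.mem_univ i0)
  rw [Fintype.sum_bool]
  simp [hi0, sg]

/-- The joint distribution for a parity. -/
theorem joint_parity (n : ℕ) (ε : ℝ) (S : Finset (Fin n)) (b : Bool) (y : Fin n → Bool) :
    joint n ε (parity n S) b y
      = (1 / 2 : ℝ) ^ n * ((1 + sg b * ((1 - 2 * ε) ^ S.card * sg (parity n S y))) / 2) := by
  unfold joint
  have h1 : ∀ x : Fin n → Bool,
      (if parity n S x = b then (1 / 2 : ℝ) ^ n * chan n ε x y else 0)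
        = (1 / 2 : ℝ) ^ n / 2 * (chan n ε x y + sg b * (sg (parity n S x) * chan n ε x y)) := by
    intro x
    have h := ind_eq (parity n S x) b
    by_cases hp : parity n S x = b
    · rw [if_pos hp] at h ⊢
      have : sg b * sg (parity n S x) = 1 := by linarith
      calc (1 / 2 : ℝ) ^ n * chan n ε x y
          = (1 / 2 : ℝ) ^ n / 2 * (chan n ε x y + (sg b * sg (parity n S x)) * chan n ε x y) := by
            rw [this]; ring
        _ = _ := by ring
    · rw [if_neg hp] at h ⊢
      have : sg b * sg (parity n S x) = -1 := by linarith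
      calc (0 : ℝ)
          = (1 / 2 : ℝ) ^ n / 2 * (chan n ε x y + (sg b * sg (parity n S x)) * chan n ε x y) := by
            rw [this]; ring
        _ = _ := by ring
  rw [Finset.sum_congr rfl (fun x _ => h1 x), ← Finset.mul_sum, Finset.sum_add_distrib,
    ← Finset.mul_sum, sum_chan, sum_sg_chan]
  ring

theorem sg_sq (b : Bool) : sg b = 1 ∨ sg b = -1 := by
  cases b <;> simp [sg]

/-- `u ↦ (u / 2) * logb 2 (u / 2)` in terms of `u * logb 2 u`. -/
theorem half_logb (u : ℝ) (hu : 0 ≤ u) :
    u / 2 * Real.logb 2 (u / 2) = (u * Real.logb 2 u - u) / 2 := by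
  rcases eq_or_lt_of_le hu with h | h
  · rw [← h]; simp
  · rw [Real.logb_div (ne_of_gt h) (by norm_num), Real.logb_self_eq_one (by norm_num)]
    ring

/-- The function `t ↦ (1 + t) log (1 + t) + (1 - t) log (1 - t)` is nondecreasing on `[0, 1]`. -/
theorem phi_mono (s t : ℝ) (hs : 0 ≤ s) (hst : s ≤ t) (ht : t ≤ 1) :
    (1 + s) * Real.log (1 + s) + (1 - s) * Real.log (1 - s)
      ≤ (1 + t) * Real.log (1 + t) + (1 - t) * Real.log (1 - t) := by
  rcases eq_or_lt_of_le (hs.trans hst) with h0 | htpos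
  · have : s = 0 := le_antisymm (by rw [h0]; exact hst) hs
    rw [this, ← h0]
  have hconv := Real.convexOn_mul_log
  have hx : (1 + t) ∈ Set.Ici (0 : ℝ) := by simp only [Set.mem_Ici]; linarith
  have hy : (1 - t) ∈ Set.Ici (0 : ℝ) := by simp only [Set.mem_Ici]; linarith
  have ha : 0 ≤ (t + s) / (2 * t) := by positivity
  have hb : 0 ≤ (t - s) / (2 * t) := div_nonneg (by linarith) (by positivity)
  have hab : (t + s) / (2 * t) + (t - s) / (2 * t) = 1 := by field_simp; ring
  have h1 := hconv.2 hx hy ha hb hab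
  have h2 := hconv.2 hy hx ha hb hab
  simp only [smul_eq_mul] at h1 h2
  have e1 : (t + s) / (2 * t) * (1 + t) + (t - s) / (2 * t) * (1 - t) = 1 + s := by
    field_simp; ring
  have e2 : (t + s) / (2 * t) * (1 - t) + (t - s) / (2 * t) * (1 + t) = 1 - s := by
    field_simp; ring
  rw [e1] at h1
  rw [e2] at h2
  have hsum : (t + s) / (2 * t) * ((1 + t) * Real.log (1 + t))
      + (t - s) / (2 * t) * ((1 - t) * Real.log (1 - t))
      + ((t + s) / (2 * t) * ((1 - t) * Real.log (1 - t))
      + (t - s) / (2 * t) * ((1 + t) * Real.log (1 + t)))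
      = (1 + t) * Real.log (1 + t) + (1 - t) * Real.log (1 - t) := by
    have : (t + s) / (2 * t) = 1 - (t - s) / (2 * t) := by linarith
    rw [this]; ring
  linarith

/-- Mutual information of a parity with the noisy observation, in closed form. -/
theorem mutualInfo_parity (n : ℕ) (S : Finset (Fin n)) (hS : S.Nonempty) (ε : ℝ) :
    mutualInfo n ε (parity n S)
      = ((1 + (1 - 2 * ε) ^ S.card) * Real.logb 2 (1 + (1 - 2 * ε) ^ S.card)
        + (1 - (1 - 2 * ε) ^ S.card) * Real.logb 2 (1 - (1 - 2 * ε) ^ S.card)) / 2 := by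
  set t : ℝ := (1 - 2 * ε) ^ S.card with ht
  have hcube : ∑ _y : Fin n → Bool, (1 : ℝ) = 2 ^ n := by
    rw [Finset.sum_const, Finset.card_univ, Fintype.card_pi, Finset.prod_const,
      Finset.card_univ, Fintype.card_bool, Fintype.card_fin]
    simp
  have hpow : (1 / 2 : ℝ) ^ n * 2 ^ n = 1 := by
    rw [← mul_pow]; norm_num
  -- marginals
  have hmB : ∀ b : Bool, ∑ y : Fin n → Bool, joint n ε (parity n S) b y = 1 / 2 := by
    intro b
    have h1 : ∀ y : Fin n → Bool, joint n ε (parity n S) b y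
        = (1 / 2 : ℝ) ^ n / 2 * 1 + (1 / 2 : ℝ) ^ n / 2 * sg b * t * sg (parity n S y) := by
      intro y
      rw [joint_parity]; ring
    rw [Finset.sum_congr rfl (fun y _ => h1 y), Finset.sum_add_distrib, ← Finset.mul_sum,
      ← Finset.mul_sum, hcube, sum_sg_parity n S hS]
    have : (1 / 2 : ℝ) ^ n / 2 * 2 ^ n = 1 / 2 := by rw [div_mul_eq_mul_div, hpow]
    rw [this]; ring
  have hmY : ∀ y : Fin n → Bool, ∑ b : Bool, joint n ε (parity n S) b y = (1 / 2 : ℝ) ^ n := by
    intro y
    rw [Fintype.sum_bool, joint_parity, joint_parity]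
    simp only [sg, if_true, Bool.false_eq_true, if_false]
    ring
  have hpos : (0 : ℝ) < (1 / 2 : ℝ) ^ n := by positivity
  -- each term
  have hterm : ∀ (b : Bool) (y : Fin n → Bool), joint n ε (parity n S) b y *
      Real.logb 2 (joint n ε (parity n S) b y /
        ((∑ y', joint n ε (parity n S) b y') * (∑ b', joint n ε (parity n S) b' y)))
      = (1 / 2 : ℝ) ^ n * ((1 + sg b * (t * sg (parity n S y))) / 2
          * Real.logb 2 (1 + sg b * (t * sg (parity n S y)))) := by
    intro b y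
    rw [hmB, hmY, joint_parity]
    have : (1 / 2 : ℝ) ^ n * ((1 + sg b * (t * sg (parity n S y))) / 2) / (1 / 2 * (1 / 2 : ℝ) ^ n)
        = 1 + sg b * (t * sg (parity n S y)) := by
      field_simp
    rw [this]; ring
  unfold mutualInfo
  rw [Finset.sum_congr rfl (fun b _ => Finset.sum_congr rfl (fun y _ => hterm b y)),
    Finset.sum_comm]
  have hy : ∀ y : Fin n → Bool, ∑ b : Bool, (1 / 2 : ℝ) ^ n *
      ((1 + sg b * (t * sg (parity n S y))) / 2
        * Real.logb 2 (1 + sg b * (t * sg (parity n S y))))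
      = (1 / 2 : ℝ) ^ n * (((1 + t) * Real.logb 2 (1 + t) + (1 - t) * Real.logb 2 (1 - t)) / 2)
      := by
    intro y
    rw [Fintype.sum_bool]
    simp only [sg, if_true, Bool.false_eq_true, if_false]
    rcases sg_sq (parity n S y) with h | h
    · simp only [sg] at h
      rw [h]
      have e1 : 1 + -1 * (t * 1) = 1 - t := by ring
      have e2 : 1 + 1 * (t * 1) = 1 + t := by ring
      rw [e1, e2]; ring
    · simp only [sg] at h
      rw [h]
      have e1 : 1 + -1 * (t * -1) = 1 + t := by ring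
      have e2 : 1 + 1 * (t * -1) = 1 - t := by ring
      rw [e1, e2]; ring
  rw [Finset.sum_congr rfl (fun y _ => hy y), Finset.sum_const, Finset.card_univ,
    Fintype.card_pi, Finset.prod_const, Finset.card_univ, Fintype.card_bool, Fintype.card_fin,
    nsmul_eq_mul]
  push_cast
  rw [← mul_assoc, mul_comm ((2 : ℝ) ^ n) ((1 / 2 : ℝ) ^ n), hpow, one_mul]

/-- **The Courtade-Kumar inequality for parities.**  For every nonempty set `S` of coordinates
and every crossover probability `ε ∈ [0, 1/2]`, the parity `χ_S` of the bits in `S` satisfies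
`I(χ_S(X); Y) = 1 - h₂((1 - (1 - 2 ε)^|S|) / 2) ≤ 1 - h₂(ε)`, where
`h₂(p) = - p log₂ p - (1 - p) log₂ (1 - p)`. -/
theorem result (n : ℕ) (S : Finset (Fin n)) (hS : S.Nonempty) (ε : ℝ) (h0 : 0 ≤ ε)
    (h1 : ε ≤ 1 / 2) :
    mutualInfo n ε (parity n S)
        = 1 + (1 - (1 - 2 * ε) ^ S.card) / 2 * Real.logb 2 ((1 - (1 - 2 * ε) ^ S.card) / 2)
          + (1 - (1 - (1 - 2 * ε) ^ S.card) / 2)
            * Real.logb 2 (1 - (1 - (1 - 2 * ε) ^ S.card) / 2) ∧
      mutualInfo n ε (parity n S) ≤ 1 + ε * Real.logb 2 ε + (1 - ε) * Real.logb 2 (1 - ε) := by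
  set t : ℝ := (1 - 2 * ε) ^ S.card with ht
  have hρ0 : 0 ≤ 1 - 2 * ε := by linarith
  have hρ1 : 1 - 2 * ε ≤ 1 := by linarith
  have ht0 : 0 ≤ t := pow_nonneg hρ0 _
  have htρ : t ≤ 1 - 2 * ε := by
    have hk : 1 ≤ S.card := Finset.card_pos.mpr hS
    calc t ≤ (1 - 2 * ε) ^ 1 := pow_le_pow_of_le_one hρ0 hρ1 hk
      _ = 1 - 2 * ε := pow_one _
  have ht1 : t ≤ 1 := htρ.trans hρ1
  -- closed form in terms of `half_logb`
  have closed : ∀ r : ℝ, 0 ≤ r → r ≤ 1 →
      1 + (1 - r) / 2 * Real.logb 2 ((1 - r) / 2) + (1 - (1 - r) / 2) * Real.logb 2 (1 - (1 - r) / 2)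
        = ((1 + r) * Real.logb 2 (1 + r) + (1 - r) * Real.logb 2 (1 - r)) / 2 := by
    intro r hr0 hr1
    have e : 1 - (1 - r) / 2 = (1 + r) / 2 := by ring
    rw [e, half_logb (1 - r) (by linarith), half_logb (1 + r) (by linarith)]
    ring
  have hI := mutualInfo_parity n S hS ε
  rw [← ht] at hI
  refine ⟨by rw [hI, closed t ht0 ht1], ?_⟩
  have hε : 1 + ε * Real.logb 2 ε + (1 - ε) * Real.logb 2 (1 - ε)
      = ((1 + (1 - 2 * ε)) * Real.logb 2 (1 + (1 - 2 * ε))
        + (1 - (1 - 2 * ε)) * Real.logb 2 (1 - (1 - 2 * ε))) / 2 := by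
    have := closed (1 - 2 * ε) hρ0 hρ1
    have e1 : (1 - (1 - 2 * ε)) / 2 = ε := by ring
    rw [e1] at this
    exact this
  rw [hI, hε]
  have hmono := phi_mono t (1 - 2 * ε) ht0 htρ hρ1
  have hlog2 : (0 : ℝ) < Real.log 2 := Real.log_pos (by norm_num)
  unfold Real.logb
  have key : ∀ r : ℝ, ((1 + r) * (Real.log (1 + r) / Real.log 2)
      + (1 - r) * (Real.log (1 - r) / Real.log 2)) / 2
      = ((1 + r) * Real.log (1 + r) + (1 - r) * Real.log (1 - r)) / (2 * Real.log 2) := by
    intro r; field_simp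
  rw [key, key]
  exact div_le_div_of_nonneg_right hmono (by positivity)

end Vale.Agent.Results.P322.Parities
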