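import Vale.Agent.Results.P322.InfluenceBound
import Vale.Agent.Results.P322.Parities

/-!
# P322 (Courtade-Kumar): the influence bound and the exact value for parities, together

`X` is uniform on the cube `{false, true}^n` and `Y` is `X` sent through `n` independent binary
symmetric channels with crossover probability `ε ∈ [0, 1/2]`.

1. For every Boolean function `f` and every coordinate `i`:
   `I(f(X); Y) ≤ H(f(X)) - h₂(ε) · Inf_i(f)`; hence `I(f(X); Y) ≤ 1 - h₂(ε)` whenever flipping
   bit `i` always changes the value of `f`.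
2. For every nonempty set `S` of coordinates the parity `χ_S` of the bits in `S` satisfies
   `I(χ_S(X); Y) = 1 - h₂((1 - (1 - 2 ε)^|S|) / 2) ≤ 1 - h₂(ε)`.

Statement 1 is the hand-in `InfluenceBound`, statement 2 the hand-in `Parities`; this file states
their conjunction and proves it from the two results. The two parts use two copies, with
identical bodies, of the definitions of the channel, the joint distribution and the mutual
information (one in `Vale.Agent.Lib.P322`, one in the namespace of `Parities`).
-/

namespace Vale.Agent.Results.P322.InfluenceAndParities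

open Vale.Agent.Lib.P322

theorem result :
    (∀ (n : ℕ) (ε : ℝ), 0 ≤ ε → ε ≤ 1 / 2 → ∀ (f : (Fin n → Bool) → Bool) (i : Fin n),
      mutualInfo n ε f ≤ h2 (pTrue n f) - h2 ε * infl n f i ∧
      ((∀ x : Fin n → Bool, f (flipBit i x) ≠ f x) → mutualInfo n ε f ≤ 1 - h2 ε)) ∧
    (∀ (n : ℕ) (S : Finset (Fin n)), S.Nonempty → ∀ ε : ℝ, 0 ≤ ε → ε ≤ 1 / 2 →
      Parities.mutualInfo n ε (Parities.parity n S)
        = 1 + (1 - (1 - 2 * ε) ^ S.card) / 2 * Real.logb 2 ((1 - (1 - 2 * ε) ^ S.card) / 2)
          + (1 - (1 - (1 - 2 * ε) ^ S.card) / 2)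
            * Real.logb 2 (1 - (1 - (1 - 2 * ε) ^ S.card) / 2) ∧
      Parities.mutualInfo n ε (Parities.parity n S)
        ≤ 1 + ε * Real.logb 2 ε + (1 - ε) * Real.logb 2 (1 - ε)) :=
  ⟨fun n ε h0 h1 f i => InfluenceBound.result n ε h0 h1 f i,
    fun n S hS ε h0 h1 => Parities.result n S hS ε h0 h1⟩

end Vale.Agent.Results.P322.InfluenceAndParities
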