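import Mathlib
import Vale.Agent.Lib.P322.Influence

namespace Vale.Agent.Results.P322.InfluenceBound

open Vale.Agent.Lib.P322

/-- An influence bound for the Courtade-Kumar mutual information.
`X` is uniform on the cube `{false, true}^n`, `Y` is `X` sent through `n` independent binary
symmetric channels with crossover probability `ε ∈ [0, 1/2]`, and `f` is any Boolean function.
* For every coordinate `i`: `I(f(X); Y) ≤ H(f(X)) - h₂(ε) · Inf_i(f)`, where
  `H(f(X)) = h₂(P(f(X) = true))` and `Inf_i(f)` is the influence of coordinate `i`.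
* Hence the Courtade-Kumar inequality `I(f(X); Y) ≤ 1 - h₂(ε)` holds for every `f` that has a
  coordinate `i` such that flipping bit `i` always changes the value of `f`. -/
theorem result (n : ℕ) (ε : ℝ) (hε0 : 0 ≤ ε) (hε1 : ε ≤ 1 / 2) (f : (Fin n → Bool) → Bool)
    (i : Fin n) :
    mutualInfo n ε f ≤ h2 (pTrue n f) - h2 ε * infl n f i ∧
    ((∀ x : Fin n → Bool, f (flipBit i x) ≠ f x) → mutualInfo n ε f ≤ 1 - h2 ε) := by
  have h := influence_bound n ε hε0 (by linarith) f i
  refine ⟨h, fun hx => ?_⟩
  rw [infl_eq_one n f i hx, mul_one] at h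
  linarith [h2_le_one (pTrue n f)]

end Vale.Agent.Results.P322.InfluenceBound
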